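import Mathlib.Geometry.Manifold.VectorBundle.Riemannian
import Mathlib.Geometry.Manifold.VectorBundle.Tangent
import Mathlib.Geometry.Manifold.Instances.Real
import Mathlib.Geometry.Manifold.Diffeomorph
import Mathlib.Geometry.Manifold.MFDeriv.Defs
import Mathlib.Geometry.Manifold.IsManifold.InteriorBoundary
import Mathlib.Analysis.InnerProductSpace.Adjoint
import Mathlib.MeasureTheory.Measure.Haar.InnerProductSpace
import Mathlib.MeasureTheory.Integral.Bochner.Basic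

/-!
# P088: metrics, unitary connections and the data on a boundary patch (definitions)
-/

open Bundle Manifold MeasureTheory Set
open scoped ContDiff

noncomputable section

namespace Vale.Agent.P088I65

/-- `ℝ^n`. -/
abbrev E (n : ℕ) : Type := EuclideanSpace ℝ (Fin n)

/-- `ℂ^N` with the standard Hermitian product. -/
abbrev Fib (N : ℕ) : Type := EuclideanSpace ℂ (Fin N)

/-- Complex linear endomorphisms of `ℂ^N`; `star` is the adjoint. -/
abbrev End (N : ℕ) : Type := Fib N →L[ℂ] Fib N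

variable (n : ℕ) [NeZero n] (N : ℕ) (M : Type*) [TopologicalSpace M]
  [ChartedSpace (EuclideanHalfSpace n) M] [IsManifold (𝓡∂ n) ∞ M]

/-- Riemannian metrics on `M`, smooth up to the boundary. -/
abbrev Met : Type _ :=
  ContMDiffRiemannianMetric (𝓡∂ n) ∞ (E n) fun x : M => TangentSpace (𝓡∂ n) x

/-- `1`-forms on `M` with values in `F`. -/
abbrev Form (F : Type) [NormedAddCommGroup F] [NormedSpace ℝ F] : Type _ :=
  ∀ x : M, TangentSpace (𝓡∂ n) x →L[ℝ] F

/-- The form `α` is a smooth section of the bundle `Hom(TM, M × F)`. -/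
def SmoothForm (F : Type) [NormedAddCommGroup F] [NormedSpace ℝ F] (α : Form n M F) : Prop :=
  ContMDiff (𝓡∂ n) ((𝓡∂ n).prod 𝓘(ℝ, E n →L[ℝ] F)) ∞ fun x : M =>
    TotalSpace.mk' (E n →L[ℝ] F)
      (E := fun x : M => TangentSpace (𝓡∂ n) x →L[ℝ] Trivial M F x) x (α x)

/-- Smooth `1`-forms `A` with values in `𝔲(N)`. -/
structure Conn where
  A : Form n M (End N)
  smooth : SmoothForm n M (End N) A
  skew : ∀ x v, star (A x v) = -A x v

variable {N M}

/-- `u : M → F` is smooth up to the boundary. -/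
def Smooth {F : Type} [NormedAddCommGroup F] [NormedSpace ℝ F] (u : M → F) : Prop :=
  ContMDiff (𝓡∂ n) 𝓘(ℝ, F) ∞ u

/-- The differential `du`. -/
def dif {F : Type} [NormedAddCommGroup F] [NormedSpace ℝ F] (u : M → F) : Form n M F :=
  fun x => mfderiv (𝓡∂ n) 𝓘(ℝ, F) u x

/-- `f ∈ C_c^∞(Γ; ℂ^N)`, extended by zero to `∂M` (the values off `∂M` play no role): `f` is
smooth in the charts of `∂M`, which are the restrictions of the charts of `M` to the hyperplane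
`y_0 = 0`, and its support in `∂M` lies in `Γ`. -/
def Data (Γ : Set M) (f : M → Fib N) : Prop :=
  (∀ p : M, ContDiffOn ℝ ∞
    (fun z : (ℝ ∙ EuclideanSpace.single (0 : Fin n) (1 : ℝ))ᗮ => f ((extChartAt (𝓡∂ n) p).symm z))
    {z | z.1 ∈ (extChartAt (𝓡∂ n) p).target}) ∧
  closure {x ∈ (𝓡∂ n).boundary M | f x ≠ 0} ⊆ Γ

variable {n}

/-- `e` is a `g`-orthonormal basis of `T_x M`. -/
def IsON (g : Met n M) (x : M) (e : Fin n → TangentSpace (𝓡∂ n) x) : Prop :=
  ∀ i j, g.inner x (e i) (e j) = if i = j then 1 else 0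

/-- `⟨α, β⟩_g = ∑ ⟨α e_i, β e_i⟩`, `e` a `g`-orthonormal basis of `T_x M`. -/
def ip (g : Met n M) (x : M) (α β : TangentSpace (𝓡∂ n) x →L[ℝ] Fib N) : ℂ :=
  ∑ i, inner ℂ (α (Classical.epsilon (IsON g x) i)) (β (Classical.epsilon (IsON g x) i))

/-- `√(det g(∂_i, ∂_j))` at the point with coordinates `y` in the chart at `p`. -/
def dens (g : Met n M) (p : M) (y : E n) : ℝ :=
  let D := mfderivWithin 𝓘(ℝ, E n) (𝓡∂ n) (extChartAt (𝓡∂ n) p).symm (range (𝓡∂ n)) y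
  √(Matrix.det (Matrix.of fun i j : Fin n =>
    g.inner _ (D (EuclideanSpace.single i (1 : ℝ))) (D (EuclideanSpace.single j (1 : ℝ)))))

/-- `d_A u = du + A u`. -/
def dA (A : Conn n N M) (u : M → Fib N) : Form n M (Fib N) := fun x =>
  dif n u x + ((ContinuousLinearMap.apply ℂ (Fib N) (u x)).restrictScalars ℝ).comp (A.A x)

/-- The conclusion of Q1: `g₂ = Φ^* g₁` and `A₂ = U⁻¹ (Φ^* A₁) U + U⁻¹ dU` for a diffeomorphism
`Φ` of `M` and a smooth `U : M → U(N)` with `Φ = Id` and `U = I` on `Γ`. -/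
def Related (Γ : Set M) (g₁ : Met n M) (A₁ : Conn n N M) (g₂ : Met n M) (A₂ : Conn n N M) :
    Prop :=
  ∃ (Φ : Diffeomorph (𝓡∂ n) (𝓡∂ n) M M ∞) (U : M → unitary (End N)),
    Smooth n (fun x => (U x).1) ∧ (∀ x ∈ Γ, Φ x = x ∧ U x = 1) ∧
    (∀ x v w, g₂.inner x v w =
      g₁.inner (Φ x) (mfderiv (𝓡∂ n) (𝓡∂ n) Φ x v) (mfderiv (𝓡∂ n) (𝓡∂ n) Φ x w)) ∧
    ∀ x v, A₂.A x v = (U x)⁻¹.1 * A₁.A (Φ x) (mfderiv (𝓡∂ n) (𝓡∂ n) Φ x v) * (U x).1 +
      (U x)⁻¹.1 * dif n (fun x => (U x).1) x v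

variable [MeasurableSpace M]

/-- `μ` is `√(det g_{ij}) dy` in every chart. -/
def IsVol (g : Met n M) (μ : Measure M) : Prop :=
  ∀ (p : M) (s : Set M), MeasurableSet s → s ⊆ (extChartAt (𝓡∂ n) p).source →
    μ s = ∫⁻ y in extChartAt (𝓡∂ n) p '' s, ENNReal.ofReal (dens g p y)

/-- The Riemannian volume `dV_g`. -/
def vol (g : Met n M) : Measure M := Classical.epsilon (IsVol g)

/-- `w = d_A^* α`: `w` is smooth and `∫ ⟨α, d_A φ⟩_g dV_g = ∫ ⟨w, φ⟩ dV_g` for all smooth `φ` with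
support in the interior of `M`. -/
def IsAdj (g : Met n M) (A : Conn n N M) (α : Form n M (Fib N)) (w : M → Fib N) : Prop :=
  Smooth n w ∧ ∀ φ : M → Fib N, Smooth n φ → tsupport φ ⊆ (𝓡∂ n).interior M →
    ∫ x, ip g x (α x) (dA A φ x) ∂vol g = ∫ x, inner ℂ (w x) (φ x) ∂vol g

/-- `L_{g,A} u = d_A^* d_A u`. -/
def L (g : Met n M) (A : Conn n N M) (u : M → Fib N) : M → Fib N :=
  Classical.epsilon (IsAdj g A (dA A u))

/-- `u` is smooth, `L_{g,A} u = 0` in `M` and `u = f` on `∂M`. -/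
def Solves (g : Met n M) (A : Conn n N M) (f u : M → Fib N) : Prop :=
  Smooth n u ∧ L g A u = 0 ∧ ∀ x ∈ (𝓡∂ n).boundary M, u x = f x

/-- The solution `u_f`. -/
def sol (g : Met n M) (A : Conn n N M) (f : M → Fib N) : M → Fib N :=
  Classical.epsilon (Solves g A f)

/-- The data on `Γ`: `⟨Λ_{g,A,Γ} f, h⟩ = ∫_M ⟨d_A u_f, d_A u_h⟩_g dV_g`. -/
def Lam (g : Met n M) (A : Conn n N M) (Γ : Set M) (f h : {f : M → Fib N // Data n Γ f}) : ℂ :=
  ∫ x, ip g x (dA A (sol g A f) x) (dA A (sol g A h) x) ∂vol g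

end Vale.Agent.P088I65
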