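import Vale.Agent.P088I65.Defs
import Vale.Agent.P088.R2.H31.DM.Top
import Vale.Agent.P088.R2.H31.DM.Vol
import Mathlib.Geometry.Manifold.MFDeriv.Atlas

/-!
# P088: from the objects of Mathlib to the invariant layer of the development
-/

set_option linter.all false

open Bundle Manifold MeasureTheory Set Filter
open scoped ContDiff Matrix Topology

noncomputable section

namespace Vale.Agent.P088I65

open Vale.Agent.P088 (Metric Connection coordVec gram cc es IsRiemannianVolume rp pairing covI gI)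
open Vale.Agent.P088.EYM (One SmS)

universe u

variable {n N : ℕ} [NeZero n] {M : Type u} [TopologicalSpace M]
  [ChartedSpace (EuclideanHalfSpace n) M] [IsManifold (𝓡∂ n) ∞ M]

theorem coordVec_smooth (p : M) (i : Fin n) :
    ContMDiffOn (𝓡∂ n) ((𝓡∂ n).prod 𝓘(ℝ, E n)) ∞
      (fun x => TotalSpace.mk' (E n) (E := fun x : M => TangentSpace (𝓡∂ n) x) x
        (coordVec (𝓡∂ n) p x i)) (extChartAt (𝓡∂ n) p).source := by
  have h := (trivializationAt (E n) (TangentSpace (𝓡∂ n)) p).contMDiffOn_section_baseSet_iff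
    (IB := 𝓡∂ n) (n := ∞) (s := fun x => coordVec (𝓡∂ n) p x i)
  rw [TangentBundle.trivializationAt_baseSet, ← extChartAt_source (𝓡∂ n)] at h
  refine h.2 (contMDiffOn_const (c := es n i) |>.congr fun x hx => ?_)
  exact Vale.Agent.P088.cc_inv_left (𝓡∂ n) hx (es n i)

theorem form_smooth {F : Type} [NormedAddCommGroup F] [NormedSpace ℝ F] {α : Form n M F}
    (h : SmoothForm n M F α) (p : M) (i : Fin n) :
    ContMDiffOn (𝓡∂ n) 𝓘(ℝ, F) ∞ (fun x => α x (coordVec (𝓡∂ n) p x i))
      (extChartAt (𝓡∂ n) p).source := by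
  intro x hx
  have h1 : ContMDiffWithinAt (𝓡∂ n) ((𝓡∂ n).prod 𝓘(ℝ, F)) ∞
      (fun m => TotalSpace.mk' F (E := Bundle.Trivial M F) m (α m (coordVec (𝓡∂ n) p m i)))
      (extChartAt (𝓡∂ n) p).source x :=
    ContMDiffWithinAt.clm_bundle_apply (F₁ := E n) (b := fun m => m)
      (h x).contMDiffWithinAt (coordVec_smooth p i x hx)
  simp only [contMDiffWithinAt_totalSpace] at h1
  exact h1.2

/-- the metric in the invariant layer -/
def met (g : Met n M) : Metric (𝓡∂ n) M where
  inner := g.inner
  symm := g.symm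
  pos := g.pos
  smooth := fun p i j x hx => by
    have h1 : ContMDiffWithinAt (𝓡∂ n) ((𝓡∂ n).prod 𝓘(ℝ, ℝ)) ∞
        (fun m => TotalSpace.mk' ℝ (E := Bundle.Trivial M ℝ) m
          (g.inner m (coordVec (𝓡∂ n) p m i) (coordVec (𝓡∂ n) p m j)))
        (extChartAt (𝓡∂ n) p).source x :=
      ContMDiffWithinAt.clm_bundle_apply₂ (F₁ := E n) (F₂ := E n) (b := fun m => m)
        (g.contMDiff x).contMDiffWithinAt (coordVec_smooth p i x hx) (coordVec_smooth p j x hx)
    simp only [contMDiffWithinAt_totalSpace] at h1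
    exact h1.2

/-- the connection in the invariant layer -/
def con (A : Conn n N M) : Connection (𝓡∂ n) N M where
  form := A.A
  smooth := form_smooth A.smooth
  skew := A.skew

theorem exists_on (g : Met n M) (x : M) : ∃ e, IsON g x e := by
  letI : RiemannianBundle (fun x : M => TangentSpace (𝓡∂ n) x) := ⟨g.toRiemannianMetric⟩
  haveI : FiniteDimensional ℝ (TangentSpace (𝓡∂ n) x) :=
    inferInstanceAs (FiniteDimensional ℝ (E n))
  have hr : Module.finrank ℝ (TangentSpace (𝓡∂ n) x) = n := finrank_euclideanSpace_fin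
  let b := (stdOrthonormalBasis ℝ (TangentSpace (𝓡∂ n) x)).reindex (finCongr hr)
  exact ⟨b, fun i j => orthonormal_iff_ite.1 b.orthonormal i j⟩

theorem on_sum {g : Met n M} {x : M} {e : Fin n → TangentSpace (𝓡∂ n) x} (he : IsON g x e)
    (α β : E n →L[ℝ] Fib N) : ∑ i, (inner ℂ (α (e i)) (β (e i)) : ℂ) =
      rp (met g) x fun a b => (inner ℂ (α a) (β b) : ℂ) := by
  let T : Matrix (Fin n) (Fin n) ℝ := Matrix.of fun a i => (show E n from e i) a
  have hT : ∀ i, (show E n from e i) = ∑ a, T a i • es n a := fun i =>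
    Vale.Agent.P088.eq_sum_es _
  have h1 : Tᵀ * gram (met g) x x * T = 1 := by
    ext i j
    have h2 : gI (met g) x (show E n from e i) (show E n from e j) = if i = j then 1 else 0 :=
      he i j
    rw [hT i, hT j] at h2
    rw [Matrix.one_apply, ← h2]
    simp only [Matrix.mul_apply, Matrix.transpose_apply, map_sum, map_smul, Finset.sum_mul,
      Finset.mul_sum, _root_.sum_apply, _root_.smul_apply, smul_eq_mul,
      Vale.Agent.P088.gram_self]
    refine Finset.sum_congr rfl fun k _ => Finset.sum_congr rfl fun l _ => ?_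
    ring
  have h3 : (gram (met g) x x)⁻¹ = T * Tᵀ := by
    refine Matrix.inv_eq_right_inv ?_
    have h4 : T * (Tᵀ * gram (met g) x x) = 1 := mul_eq_one_comm.1 h1
    have h5 : (T * Tᵀ) * gram (met g) x x = 1 := by rw [Matrix.mul_assoc]; exact h4
    exact mul_eq_one_comm.1 h5
  unfold rp
  rw [h3]
  have h6 : ∀ i, (inner ℂ (α (e i)) (β (e i)) : ℂ) =
      ∑ a, ∑ b, (T a i * T b i) • (inner ℂ (α (es n a)) (β (es n b)) : ℂ) := by
    intro i
    have e1 : α (e i) = ∑ a, T a i • α (es n a) := by
      refine (congrArg α (hT i)).trans ?_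
      simp only [map_sum, map_smul]
    have e2 : β (e i) = ∑ a, T a i • β (es n a) := by
      refine (congrArg β (hT i)).trans ?_
      simp only [map_sum, map_smul]
    rw [e1, e2, sum_inner]
    refine Finset.sum_congr rfl fun a _ => ?_
    rw [inner_sum]
    refine Finset.sum_congr rfl fun b _ => ?_
    rw [inner_smul_left_eq_smul, inner_smul_right_eq_smul, smul_smul]
  simp only [h6, Matrix.mul_apply, Matrix.transpose_apply, Finset.sum_smul]
  rw [Finset.sum_comm]
  refine Finset.sum_congr rfl fun a _ => ?_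
  rw [Finset.sum_comm]

theorem ip_eq (g : Met n M) (x : M) {e : Fin n → TangentSpace (𝓡∂ n) x} (he : IsON g x e)
    (α β : TangentSpace (𝓡∂ n) x →L[ℝ] Fib N) :
    ip g x α β = ∑ i, inner ℂ (α (e i)) (β (e i)) :=
  (on_sum (Classical.epsilon_spec (exists_on g x)) α β).trans (on_sum he α β).symm

theorem ip_dA (g : Met n M) (A : Conn n N M) (u v : M → Fib N) (x : M) :
    ip g x (dA A u x) (dA A v x) = pairing (met g) (con A) u v x := by
  rw [Vale.Agent.P088.pairing_eq_rp]
  exact on_sum (Classical.epsilon_spec (exists_on g x)) (dA A u x) (dA A v x)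

theorem dens_eq (g : Met n M) {p x : M} (hx : x ∈ (extChartAt (𝓡∂ n) p).source) :
    dens g p (extChartAt (𝓡∂ n) p x) =
      √(gram (met g) p ((extChartAt (𝓡∂ n) p).symm (extChartAt (𝓡∂ n) p x))).det := by
  have hx' : x ∈ (chartAt (EuclideanHalfSpace n) p).source := by
    rwa [extChartAt_source] at hx
  have h1 := TangentBundle.symmL_trivializationAt (I := 𝓡∂ n) hx'
  rw [TangentBundle.symmL_trivializationAt_eq_core hx'] at h1
  unfold dens
  rw [(extChartAt (𝓡∂ n) p).left_inv hx]
  simp only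
  congr 2
  ext i j
  rw [Matrix.of_apply, ← h1]
  rfl

variable [MeasurableSpace M] [BorelSpace M]

theorem isVol_iff (g : Met n M) (μ : Measure M) : IsVol g μ ↔ IsRiemannianVolume (met g) μ := by
  refine forall_congr' fun p => forall_congr' fun s => forall_congr' fun hs =>
    forall_congr' fun hsub => ?_
  rw [setLIntegral_congr_fun (Vale.Agent.P088.S.measurable_image hs hsub)]
  rintro _ ⟨x, hx, rfl⟩
  exact congrArg ENNReal.ofReal (dens_eq g (hsub hx))

variable [CompactSpace M]

theorem existsUnique_vol (g : Met n M) : ∃! μ, IsVol g μ := by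
  obtain ⟨μ, hμ⟩ := Vale.Agent.P088.R2.H31.DM.exists_vol (met g)
  refine ⟨μ, (isVol_iff g μ).2 hμ, fun ν hν => ?_⟩
  refine Vale.Agent.P088.R2.H31.DM.vol_unique (n := n) fun p s hs hsub => ?_
  rw [Vale.Agent.P088.S.src_eq] at hsub
  exact (hν p s hs hsub).trans ((isVol_iff g μ).2 hμ p s hs hsub).symm

/-- the pair in the invariant layer -/
def one (g : Met n M) (A : Conn n N M) : One n N M :=
  ⟨met g, vol g, con A, (isVol_iff g _).1 (Classical.epsilon_spec (existsUnique_vol g).exists)⟩

theorem en_eq (g : Met n M) (A : Conn n N M) (u v : M → Fib N) :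
    ∫ x, ip g x (dA A u x) (dA A v x) ∂vol g = (one g A).E u v := by
  simp only [ip_dA]
  rfl

end Vale.Agent.P088I65
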