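import Vale.Agent.P088.R2.H31.DM.Top
import Vale.Agent.P088.R2.H31.DM.Vol

/-!
# P088: every pair of the invariant layer comes from a pair of coefficients
-/

set_option linter.all false

open Bundle Manifold MeasureTheory Set Filter
open scoped ContDiff Matrix Topology

noncomputable section

namespace Vale.Agent.P088I65

open Vale.Agent.P088 Vale.Agent.P088.R2.H31
open Vale.Agent.P088.EYM (One SmS)

universe u

variable {n N : ℕ} [NeZero n] {M : Type u} [TopologicalSpace M]
  [ChartedSpace (EuclideanHalfSpace n) M] [IsManifold (𝓡∂ n) ∞ M]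

theorem isSmooth_of (g : Metric (𝓡∂ n) M) (A : Connection (𝓡∂ n) N M) :
    B.IsSmooth (B.at_ n M) (fun x => gram g x x) (fun x i => S.ofE (A.form x (es n i))) := by
  refine ⟨fun x => ⟨gram_posDef g (mem_extChartAt_source x), fun i => S.toE_inj ?_⟩,
    fun p i j => ⟨?_, fun a b => ?_⟩⟩
  · rw [S.toE_star, S.toE_neg, S.toE_ofE]
    exact A.skew x _
  · change S.SmOn n (S.src n p) _
    have h1 : ContMDiffOn (𝓡∂ n) 𝓘(ℝ, ℂ) ∞ (fun x => ((gram g p x i j : ℝ) : ℂ)) (S.src n p) := by
      rw [S.src_eq]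
      exact Complex.ofRealCLM.contDiff.contMDiff.comp_contMDiffOn (contMDiffOn_gram g p i j)
    refine h1.congr fun x hx => ?_
    rw [B.at_gch, B.at_ch, B.at_pt_ch hx, gram_eq g p x]
    have h2 : S.jac n p x = mat (cc (𝓡∂ n) p x) := by
      ext k l
      exact S.jac_eq hx k l
    unfold S.inChart
    rw [h2]
  · change S.SmOn n (S.src n p) _
    have h1 : ContMDiffOn (𝓡∂ n) 𝓘(ℝ, ℂ) ∞
        (fun x => S.ent a b (A.form x (coordVec (𝓡∂ n) p x i))) (S.src n p) := by
      rw [S.src_eq]
      exact (S.ent a b).contDiff.contMDiff.comp_contMDiffOn (A.smooth p i)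
    refine h1.congr fun x hx => ?_
    rw [B.at_ach, B.at_ch, B.at_pt_ch hx, S.ent_apply]
    refine congrFun (congrFun (S.toE_inj ?_) a) b
    rw [← S.toE_rsum, S.toE_ofE]
    simp only [S.toE_ofE, S.jac_eq hx]
    let L : EuclideanSpace ℝ (Fin n) →L[ℝ] EndF N := A.form x
    show ∑ k, (cc (𝓡∂ n) p x (es n i)) k • L (es n k) = L (cc (𝓡∂ n) p x (es n i))
    conv_rhs => rw [eq_sum_es (cc (𝓡∂ n) p x (es n i))]
    simp only [map_sum, map_smul]

theorem exists_pair_one [CompactSpace M] (P : @One n N _ M _ _ _ (borel M)) :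
    ∃ Q : B.Pair (B.at_ n M) N, DM.oneOf Q = P := by
  let _ : MeasurableSpace M := borel M
  have _ : BorelSpace M := ⟨rfl⟩
  obtain ⟨g, μ, A, hμ⟩ := P
  obtain ⟨Q, ⟨h1, h2⟩, -⟩ := DM.exists_pair (isSmooth_of g A)
  have hg : S.gOf (B.conv Q) = g := by
    have h3 : (S.gOf (B.conv Q)).inner = g.inner := by
      funext x
      show S.bil (Q.g x) = gI g x
      ext1 v
      ext1 w
      rw [S.bil_apply, h1]
      conv_rhs => rw [eq_sum_es v, eq_sum_es w]
      simp only [map_sum, map_smul, _root_.sum_apply, _root_.smul_apply, smul_eq_mul, gram_self,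
        Finset.mul_sum]
      rw [Finset.sum_comm]
      refine Finset.sum_congr rfl fun k _ => Finset.sum_congr rfl fun l _ => ?_
      ring
    revert h3
    generalize S.gOf (B.conv Q) = g'
    intro h3
    cases g; cases g'
    simp only at h3
    subst h3
    rfl
  have hA : S.connOf (B.conv Q) = A := by
    have h3 : (S.connOf (B.conv Q)).form = A.form := by
      funext x
      let L : EuclideanSpace ℝ (Fin n) →L[ℝ] EndF N := A.form x
      show S.formOf (Q.A x) = L
      ext1 v
      rw [S.formOf_apply, h2]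
      simp only [S.toE_ofE]
      conv_rhs => rw [eq_sum_es v]
      simp only [map_sum, map_smul]
      rfl
    revert h3
    generalize S.connOf (B.conv Q) = A'
    intro h3
    cases A; cases A'
    simp only at h3
    subst h3
    rfl
  have hv : Q.vol = μ := by
    refine @DM.vol_unique n _ M _ _ _ (borel M) ⟨rfl⟩ _ _ _ fun p s hs hsub => ?_
    rw [S.src_eq] at hsub
    have h4 := S.isVol_gOf (B.conv Q) p s hs hsub
    rw [hg] at h4
    exact h4.trans (hμ p s hs hsub).symm
  refine ⟨Q, ?_⟩
  clear h1 h2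
  subst hg hA hv
  rfl

end Vale.Agent.P088I65
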