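import Vale.Agent.P088I65.Dict
import Vale.Agent.P088I65.Pair

/-!
# P088: the intrinsic statement from the rows
-/

set_option linter.all false

open Bundle Manifold MeasureTheory Set Filter
open scoped ContDiff Matrix Topology

noncomputable section

namespace Vale.Agent.P088I65

open Vale.Agent.P088 (GaugeEquivalent IsHarmonicExt continuous_pairing)
open Vale.Agent.P088.R2.H31
open Vale.Agent.P088.EYM (One SmS)

universe u

variable {n N : ℕ} [NeZero n] {M : Type u} [TopologicalSpace M]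
  [ChartedSpace (EuclideanHalfSpace n) M] [IsManifold (𝓡∂ n) ∞ M]
  [MeasurableSpace M] [BorelSpace M] [T2Space M] [CompactSpace M]

/-- Green's formula -/
def ADJ (P : One n N M) : Prop :=
  ∀ u, SmS n u → ∃ w, SmS n w ∧ ∀ φ, SmS n φ → (∀ x ∈ (𝓡∂ n).boundary M, φ x = 0) →
    P.E u φ = ∫ x, inner ℂ (w x) (φ x) ∂P.μ

/-- test sections separate -/
def UNIQ (P : One n N M) : Prop :=
  ∀ w : M → Fib N, SmS n w → (∀ φ : M → Fib N, SmS n φ → tsupport φ ⊆ (𝓡∂ n).interior M →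
    ∫ x, inner ℂ (w x) (φ x) ∂P.μ = 0) → w = 0

theorem fin_one (P : One n N M) : IsFiniteMeasure P.μ :=
  (Vale.Agent.P088.EYM.cInt n N M P).1

theorem integrable_of (P : One n N M) {f : M → ℂ} (hf : Continuous f) : Integrable f P.μ := by
  have := fin_one P
  exact hf.integrable_of_hasCompactSupport (HasCompactSupport.of_compactSpace f)

theorem zero_bd {φ : M → Fib N} (h : tsupport φ ⊆ (𝓡∂ n).interior M) :
    ∀ x ∈ (𝓡∂ n).boundary M, φ x = 0 := fun x hx =>
  image_eq_zero_of_notMem_tsupport fun hs =>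
    (ModelWithCorners.disjoint_interior_boundary (I := 𝓡∂ n) (M := M)).notMem_of_mem_left (h hs) hx

variable {g : Met n M} {A : Conn n N M}

theorem adj_unique (hU : UNIQ (one g A)) {α : Form n M (Fib N)} {w w' : M → Fib N}
    (h : IsAdj g A α w) (h' : IsAdj g A α w') : w = w' := by
  have h1 : SmS n (w - w') := ContMDiff.sub h.1 h'.1
  refine sub_eq_zero.1 (hU _ h1 fun φ hφ hs => ?_)
  have h2 := (h.2 φ hφ hs).symm.trans (h'.2 φ hφ hs)
  simp only [Pi.sub_apply, inner_sub_left]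
  rw [integral_sub (integrable_of _ (h.1.continuous.inner hφ.continuous))
    (integrable_of _ (h'.1.continuous.inner hφ.continuous))]
  exact sub_eq_zero.2 h2

theorem adj_exists (hA : ADJ (one g A)) {u : M → Fib N} (hu : Smooth n u) :
    ∃ w, IsAdj g A (dA A u) w ∧ ∀ φ, SmS n φ → (∀ x ∈ (𝓡∂ n).boundary M, φ x = 0) →
      (one g A).E u φ = ∫ x, inner ℂ (w x) (φ x) ∂vol g := by
  obtain ⟨w, hw, h⟩ := hA u hu
  exact ⟨w, ⟨hw, fun φ hφ hs => (en_eq g A u φ).trans (h φ hφ (zero_bd hs))⟩, h⟩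

theorem solves_iff (hA : ADJ (one g A)) (hU : UNIQ (one g A)) (f u : M → Fib N) :
    Solves g A f u ↔ (one g A).Harm f u := by
  constructor
  · rintro ⟨hu, hL, hb⟩
    obtain ⟨w, hw, h⟩ := adj_exists hA hu
    have h1 : IsAdj g A (dA A u) (L g A u) := Classical.epsilon_spec ⟨w, hw⟩
    have h2 : w = 0 := (adj_unique hU hw h1).trans hL
    refine ⟨hu, hb, fun φ hφ h0 => (h φ hφ h0).trans ?_⟩
    simp [h2]
  · rintro ⟨hu, hb, hw⟩
    have h0 : IsAdj g A (dA A u) 0 := ⟨contMDiff_const, fun φ hφ hs => by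
      rw [en_eq]
      refine (hw φ hφ (zero_bd hs)).trans ?_
      simp⟩
    have h1 : IsAdj g A (dA A u) (L g A u) := Classical.epsilon_spec ⟨0, h0⟩
    exact ⟨hu, adj_unique hU h1 h0, hb⟩

variable [ConnectedSpace M]

theorem harm_unique (P : One n N M) (hb : ((𝓡∂ n).boundary M).Nonempty) {f u u' : M → Fib N}
    (h : P.Harm f u) (h' : P.Harm f u') : u = u' :=
  (DM.uniq_M n N M P hb).1 _ _ _ _ h h' fun _ _ => rfl

theorem existsUnique_sol (hS : DM.SolvM.{u}) (hn : 2 ≤ n) (hb : ((𝓡∂ n).boundary M).Nonempty)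
    (hA : ADJ (one g A)) (hU : UNIQ (one g A)) {f F : M → Fib N} (hF : Smooth n F)
    (h : ∀ x ∈ (𝓡∂ n).boundary M, F x = f x) : ∃! u, Solves g A f u := by
  obtain ⟨u, hu⟩ := hS n N M (one g A) hn hb F hF
  have h1 : (one g A).Harm f u := ⟨hu.1, fun x hx => (hu.2 x hx).trans (h x hx), hu.3⟩
  exact ⟨u, (solves_iff hA hU f u).2 h1, fun v hv =>
    harm_unique _ hb ((solves_iff hA hU f v).1 hv) h1⟩

theorem sol_eq (hb : ((𝓡∂ n).boundary M).Nonempty) (hA : ADJ (one g A)) (hU : UNIQ (one g A))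
    {f u : M → Fib N} (h : (one g A).Harm f u) : sol g A f = u :=
  harm_unique _ hb ((solves_iff hA hU f _).1
    (Classical.epsilon_spec ⟨u, (solves_iff hA hU f u).2 h⟩)) h

omit [MeasurableSpace M] [BorelSpace M] [T2Space M] [CompactSpace M] [ConnectedSpace M] in
theorem related_of {Γ : Set M} {g₁ g₂ : Met n M} {A₁ A₂ : Conn n N M}
    (h : GaugeEquivalent Γ (met g₁) (con A₁) (met g₂) (con A₂)) : Related Γ g₁ A₁ g₂ A₂ := by
  obtain ⟨Φ, U, hU, hfix, hg, hA⟩ := h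
  refine ⟨Φ, fun x => ⟨U x, hU.unitary x⟩, hU.smooth,
    fun x hx => ⟨(hfix x hx).1, Subtype.ext (hfix x hx).2⟩, hg, fun x v => ?_⟩
  exact hA x v

end Vale.Agent.P088I65

namespace Vale.Agent.P088I65

open Vale.Agent.P088 Vale.Agent.P088.R2.H31
open Vale.Agent.P088.EYM (One SmS)

universe u

variable {n N : ℕ} [NeZero n] {M : Type u} [TopologicalSpace M]
  [ChartedSpace (EuclideanHalfSpace n) M] [IsManifold (𝓡∂ n) ∞ M]
  [T2Space M] [CompactSpace M] [ConnectedSpace M]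

theorem sameForm_of [m : MeasurableSpace M] [hm : BorelSpace M] {Γ : Set M}
    (hb : ((𝓡∂ n).boundary M).Nonempty)
    (hA : ∀ P : One n N M, ADJ P) (hU : ∀ P : One n N M, UNIQ P)
    (hres : ∀ F : M → P088I65.Fib N, Smooth n F →
      closure {x ∈ (𝓡∂ n).boundary M | F x ≠ 0} ⊆ Γ → Data n Γ F)
    {g₁ g₂ : Met n M} {A₁ A₂ : Conn n N M} (h : Lam g₁ A₁ Γ = Lam g₂ A₂ Γ) :
    ∃ P Q : B.Pair (B.at_ n M) N, DM.SameForm n M Γ P Q ∧
      (GaugeEquivalent Γ (S.gOf (B.conv P)) (S.connOf (B.conv P)) (S.gOf (B.conv Q))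
        (S.connOf (B.conv Q)) → Related Γ g₁ A₁ g₂ A₂) := by
  obtain ⟨hm'⟩ := id hm
  subst hm'
  let _ : MeasurableSpace M := borel M
  obtain ⟨P, hP⟩ := exists_pair_one (one g₁ A₁)
  obtain ⟨Q, hQ⟩ := exists_pair_one (one g₂ A₂)
  refine ⟨P, Q, ?_, fun hG => related_of ?_⟩
  · intro f k hf hk u v u' v' h1 h2 h3 h4
    have hD : ∀ f : M → Fin N → ℂ, B.Data (B.at_ n M) Γ f → Data n Γ (S.toF f) := fun f hf =>
      hres _ ((S.sm_iff f).1 (B.data_iff'.1 hf).1) (by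
        rw [S.supp_eq]; exact (B.data_iff'.1 hf).2)
    have e := congrFun (congrFun h ⟨_, hD f hf⟩) ⟨_, hD k hk⟩
    have a1 := DM.harm_iff.1 h1
    have a2 := DM.harm_iff.1 h2
    have a3 := DM.harm_iff.1 h3
    have a4 := DM.harm_iff.1 h4
    rw [hP] at a1 a2
    rw [hQ] at a3 a4
    rw [DM.energy_one h1.1 h2.1, DM.energy_one h3.1 h4.1, hP, hQ]
    unfold Lam at e
    rw [en_eq, en_eq] at e
    simp only at e
    rw [sol_eq hb (hA _) (hU _) a1, sol_eq hb (hA _) (hU _) a2, sol_eq hb (hA _) (hU _) a3,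
      sol_eq hb (hA _) (hU _) a4] at e
    exact e
  · have e1 : S.gOf (B.conv P) = met g₁ := congrArg One.g hP
    have e2 : S.connOf (B.conv P) = con A₁ := congrArg One.A hP
    have e3 : S.gOf (B.conv Q) = met g₂ := congrArg One.g hQ
    have e4 : S.connOf (B.conv Q) = con A₂ := congrArg One.A hQ
    rwa [e1, e2, e3, e4] at hG

end Vale.Agent.P088I65
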