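import Vale.Agent.P088I65.Top
import Vale.Agent.P088.R2.H31.F4.Full
import Vale.Agent.P088.R2.H558.G.Done
import Vale.Agent.P088.R2.H31.DM.Solv

/-!
# P088: Question 1 with the objects of the text
-/

open Manifold MeasureTheory Set
open scoped ContDiff

namespace Vale.Agent.P088I65

open Vale.Agent.P088 Vale.Agent.P088.R2.H31

universe u

theorem main {n N : ℕ} [NeZero n] (hn : 3 ≤ n) (hN : 1 ≤ N) {M : Type u} [TopologicalSpace M]
    [ChartedSpace (EuclideanHalfSpace n) M] [IsManifold (𝓡∂ n) ∞ M] [T2Space M] [CompactSpace M]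
    [ConnectedSpace M] [MeasurableSpace M] [BorelSpace M] (Γ : Set M)
    (hΓ : Γ ⊆ (𝓡∂ n).boundary M)
    (ho : IsOpen (Subtype.val ⁻¹' Γ : Set ((𝓡∂ n).boundary M))) (hne : Γ.Nonempty) :
    P088J.WellDef (𝓡∂ n) (EuclideanSpace ℂ (Fin N)) (bs n) (ℝ ∙ bs n 0)ᗮ Γ ∧
      P088J.Determined (𝓡∂ n) (EuclideanSpace ℂ (Fin N)) (bs n) (ℝ ∙ bs n 0)ᗮ Γ := by
  have hb : ((𝓡∂ n).boundary M).Nonempty := hne.mono hΓ
  obtain ⟨O, hO, hOΓ⟩ := isOpen_induced_iff.1 ho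
  have h1 : Γ = O ∩ B.bd (B.at_ n M) := by
    rw [B.bd_at]
    ext x
    constructor
    · intro hx
      have h2 : (⟨x, hΓ hx⟩ : (𝓡∂ n).boundary M) ∈ Subtype.val ⁻¹' O := by
        rw [hOΓ]; exact hx
      exact ⟨h2, hΓ hx⟩
    · rintro ⟨hx, hx'⟩
      have h2 : (⟨x, hx'⟩ : (𝓡∂ n).boundary M) ∈ Subtype.val ⁻¹' Γ := by
        rw [← hOΓ]; exact hx
      exact h2
  exact ⟨wellDef DM.solvM (by omega) hb Γ, determined DM.solvM (by omega) hb fun P Q h =>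
    F4.full Vale.Agent.P088.R2.H558.G.rowESTh hn hN _ rfl Γ O hO h1 hne P Q h⟩

end Vale.Agent.P088I65
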