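import Mathlib.Geometry.Manifold.VectorBundle.Riemannian
import Mathlib.Geometry.Manifold.VectorBundle.Tangent
import Mathlib.Geometry.Manifold.Instances.Real
import Mathlib.Geometry.Manifold.Diffeomorph
import Mathlib.Geometry.Manifold.MFDeriv.Defs
import Mathlib.Geometry.Manifold.IsManifold.InteriorBoundary
import Mathlib.Analysis.InnerProductSpace.Adjoint
import Mathlib.MeasureTheory.Measure.Haar.InnerProductSpace
import Mathlib.MeasureTheory.Integral.Bochner.Basic

/-!
# P088: metrics, unitary connections and the data on a boundary patch (definitions)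

The definitions are written for a model `I` on `E`, with coordinate vectors `b i` and boundary
hyperplane `S`, and a fibre `F`. The hand-in takes the half space of `E = ℝ^n`, the standard basis,
the hyperplane `y_0 = 0` and `F = ℂ^N`.
-/

open Bundle Manifold MeasureTheory Set
open scoped ContDiff

noncomputable section

namespace Vale.Agent.P088J

variable {E : Type} [NormedAddCommGroup E] [NormedSpace ℝ E] {H : Type} [TopologicalSpace H]
  (I : ModelWithCorners ℝ E H) (M : Type*) [TopologicalSpace M] [ChartedSpace H M]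

/-- `1`-forms on `M` with values in `V`. -/
abbrev Form (V : Type) [NormedAddCommGroup V] [NormedSpace ℝ V] : Type _ :=
  ∀ x : M, TangentSpace I x →L[ℝ] V

variable {M}

/-- `u : M → V` is smooth up to the boundary. -/
def Smooth {V : Type} [NormedAddCommGroup V] [NormedSpace ℝ V] (u : M → V) : Prop :=
  ContMDiff I 𝓘(ℝ, V) ∞ u

/-- The differential `du`. -/
def dif {V : Type} [NormedAddCommGroup V] [NormedSpace ℝ V] (u : M → V) : Form I M V :=
  fun x => mfderiv I 𝓘(ℝ, V) u x

/-- `f ∈ C_c^∞(Γ; V)`, extended by zero to `∂M` (the values off `∂M` play no role): `f` is smooth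
in the charts of `∂M`, which are the restrictions of the charts of `M` to the hyperplane `S`, and
its support in `∂M` lies in `Γ`. -/
def Data (S : Submodule ℝ E) (Γ : Set M) {V : Type} [NormedAddCommGroup V] [NormedSpace ℝ V]
    (f : M → V) : Prop :=
  (∀ p : M, ContDiffOn ℝ ∞ (fun z : S => f ((extChartAt I p).symm z))
    {z | z.1 ∈ (extChartAt I p).target}) ∧
  closure {x ∈ I.boundary M | f x ≠ 0} ⊆ Γ

variable [IsManifold I ∞ M]

/-- The form `α` is a smooth section of the bundle `Hom(TM, M × V)`. -/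
def SmoothForm {V : Type} [NormedAddCommGroup V] [NormedSpace ℝ V] (α : Form I M V) : Prop :=
  ContMDiff I (I.prod 𝓘(ℝ, E →L[ℝ] V)) ∞ fun x : M =>
    TotalSpace.mk' (E →L[ℝ] V) (E := fun x : M => TangentSpace I x →L[ℝ] Trivial M V x) x (α x)

variable (M)

/-- Riemannian metrics on `M`, smooth up to the boundary. -/
abbrev Met : Type _ := ContMDiffRiemannianMetric I ∞ E fun x : M => TangentSpace I x

variable (F : Type) [NormedAddCommGroup F] [InnerProductSpace ℂ F] [CompleteSpace F]
  [NormedSpace ℝ F] [IsScalarTower ℝ ℂ F] [SMulCommClass ℂ ℝ F]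

/-- Smooth `1`-forms `A` with values in the skew-adjoint endomorphisms of `F`. -/
structure Conn where
  A : Form I M (F →L[ℂ] F)
  smooth : SmoothForm I A
  skew : ∀ x v, star (A x v) = -A x v

variable {I M F} {ι : Type} [Fintype ι] [DecidableEq ι]

/-- `e` is `g`-orthonormal in `T_x M`. -/
def IsON (g : Met I M) (x : M) (e : ι → TangentSpace I x) : Prop :=
  ∀ i j, g.inner x (e i) (e j) = if i = j then 1 else 0

variable (ι) in
/-- `⟨α, β⟩_g = ∑ ⟨α e_i, β e_i⟩`, `e` a `g`-orthonormal basis of `T_x M`. -/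
def ip (g : Met I M) (α β : Form I M F) (x : M) : ℂ :=
  ∑ i : ι, inner ℂ (α x (Classical.epsilon (IsON g x) i)) (β x (Classical.epsilon (IsON g x) i))

/-- `√(det g(∂_i, ∂_j))` at the point with coordinates `y` in the chart at `p`. -/
def dens (b : ι → E) (g : Met I M) (p : M) (y : E) : ℝ :=
  let D := mfderivWithin 𝓘(ℝ, E) I (extChartAt I p).symm (range I) y
  √(Matrix.det (Matrix.of fun i j => g.inner _ (D (b i)) (D (b j))))

/-- `d_A u = du + A u`. -/
def dA (A : Conn I M F) (u : M → F) : Form I M F := fun x =>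
  dif I u x + ((ContinuousLinearMap.apply ℂ F (u x)).restrictScalars ℝ).comp (A.A x)

/-- The conclusion of Q1: `g₂ = Φ^* g₁` and `A₂ = U⁻¹ (Φ^* A₁) U + U⁻¹ dU` for a diffeomorphism
`Φ` of `M` and a smooth map `U` to the unitary group with `Φ = Id` and `U = I` on `Γ` (`R` will be
the algebra of endomorphisms of `F`). -/
def Related {R : Type} [NormedAddCommGroup R] [NormedSpace ℝ R] [Monoid R] [StarMul R]
    (Γ : Set M) (g₁ : Met I M) (A₁ : Form I M R) (g₂ : Met I M) (A₂ : Form I M R) : Prop :=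
  ∃ (Φ : Diffeomorph I I M M ∞) (U : M → unitary R),
    Smooth I (fun x => (U x).1) ∧ (∀ x ∈ Γ, Φ x = x ∧ U x = 1) ∧
    (∀ x v w, g₂.inner x v w = g₁.inner (Φ x) (mfderiv I I Φ x v) (mfderiv I I Φ x w)) ∧
    ∀ x v, A₂ x v = (U x)⁻¹.1 * A₁ (Φ x) (mfderiv I I Φ x v) * (U x).1 +
      (U x)⁻¹.1 * dif I (fun x => (U x).1) x v

variable [MeasurableSpace M] [MeasureSpace E] (b : ι → E)

/-- `μ` is `√(det g_{ij}) dy` in every chart. -/
def IsVol (g : Met I M) (μ : Measure M) : Prop :=
  ∀ (p : M) (s : Set M), MeasurableSet s → s ⊆ (extChartAt I p).source →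
    μ s = ∫⁻ y in extChartAt I p '' s, ENNReal.ofReal (dens b g p y)

/-- The Riemannian volume `dV_g`. -/
def vol (g : Met I M) : Measure M := Classical.epsilon (IsVol b g)

/-- `w = d_A^* α`: `w` is smooth and `∫ ⟨α, d_A φ⟩_g dV_g = ∫ ⟨w, φ⟩ dV_g` for all smooth `φ` with
support in the interior of `M`. -/
def IsAdj (g : Met I M) (A : Conn I M F) (α : Form I M F) (w : M → F) : Prop :=
  Smooth I w ∧ ∀ φ : M → F, Smooth I φ → tsupport φ ⊆ I.interior M →
    ∫ x, ip ι g α (dA A φ) x ∂vol b g = ∫ x, inner ℂ (w x) (φ x) ∂vol b g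

/-- `L_{g,A} u = d_A^* d_A u`. -/
def L (g : Met I M) (A : Conn I M F) (u : M → F) : M → F :=
  Classical.epsilon (IsAdj b g A (dA A u))

/-- `u` is smooth, `L_{g,A} u = 0` in `M` and `u = f` on `∂M`. -/
def Solves (g : Met I M) (A : Conn I M F) (f u : M → F) : Prop :=
  Smooth I u ∧ L b g A u = 0 ∧ ∀ x ∈ I.boundary M, u x = f x

/-- The solution `u_f`. -/
def sol (g : Met I M) (A : Conn I M F) (f : M → F) : M → F :=
  Classical.epsilon (Solves b g A f)

variable (S : Submodule ℝ E)

/-- The data on `Γ`: `⟨Λ_{g,A,Γ} f, h⟩ = ∫_M ⟨d_A u_f, d_A u_h⟩_g dV_g`. -/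
def Lam (Γ : Set M) (g : Met I M) (A : Conn I M F) (f h : {f : M → F // Data I S Γ f}) : ℂ :=
  ∫ x, ip ι g (dA A (sol b g A f)) (dA A (sol b g A h)) x ∂vol b g

variable (I F)

/-- The product of `1`-forms, the volume, the operator `L_{g,A}` and the solutions `u_f` are well
defined. -/
def WellDef (Γ : Set M) : Prop :=
  ∀ g : Met I M,
    (∀ x, (∃ e : ι → TangentSpace I x, IsON g x e) ∧ ∀ e : ι → TangentSpace I x, IsON g x e →
      ∀ α β : Form I M F, ip ι g α β x = ∑ i, inner ℂ (α x (e i)) (β x (e i))) ∧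
    (∃! μ, IsVol b g μ) ∧ ∀ A : Conn I M F,
      (∀ u v, Smooth I u → Smooth I v → Integrable (ip ι g (dA A u) (dA A v)) (vol b g)) ∧
      (∀ u, Smooth I u → ∃! w, IsAdj b g A (dA A u) w) ∧
      ∀ f, Data I S Γ f → ∃! u, Solves b g A f u

/-- Question 1 for `M` and `Γ`: pairs with the same data on `Γ` are related. -/
def Determined (Γ : Set M) : Prop :=
  ∀ (g₁ g₂ : Met I M) (A₁ A₂ : Conn I M F),
    Lam b S Γ g₁ A₁ = Lam b S Γ g₂ A₂ → Related Γ g₁ A₁.A g₂ A₂.A

end Vale.Agent.P088J
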