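import Vale.Agent.P088I65.St
import Vale.Agent.P088I65.Glue
import Vale.Agent.P088W19.Adj
import Vale.Agent.P088I9.Rows

/-!
# P088: the statement of the hand-in from the solvability theorem and the theorem in coordinates
-/

set_option linter.all false

open Bundle Manifold MeasureTheory Set Filter
open scoped ContDiff Matrix Topology

noncomputable section

namespace Vale.Agent.P088I65

open Vale.Agent.P088 Vale.Agent.P088.R2.H31
open Vale.Agent.P088.EYM (One SmS)

universe u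

variable {n N : ℕ} [NeZero n] {M : Type u} [TopologicalSpace M]
  [ChartedSpace (EuclideanHalfSpace n) M] [IsManifold (𝓡∂ n) ∞ M]

/-- the standard basis -/
abbrev bs (n : ℕ) : Fin n → EuclideanSpace ℝ (Fin n) := fun i => EuclideanSpace.single i 1

/-- the connection of the first layer -/
def cv (A : P088J.Conn (𝓡∂ n) M (EuclideanSpace ℂ (Fin N))) : Conn n N M :=
  ⟨A.A, A.smooth, A.skew⟩

theorem dA_cv (A : P088J.Conn (𝓡∂ n) M (EuclideanSpace ℂ (Fin N))) (u : M → P088I65.Fib N) :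
    P088J.dA A u = dA (cv A) u := rfl

theorem ip_cv (g : Met n M) (α β : Form n M (P088I65.Fib N)) (x : M) :
    P088J.ip (Fin n) g α β x = ip g x (α x) (β x) := rfl

variable [MeasurableSpace M]

theorem isVol_cv (g : Met n M) : P088J.IsVol (bs n) g = IsVol g := rfl

theorem vol_cv (g : Met n M) : P088J.vol (bs n) g = vol g := rfl

theorem isAdj_cv (g : Met n M) (A : P088J.Conn (𝓡∂ n) M (EuclideanSpace ℂ (Fin N)))
    (α : Form n M (P088I65.Fib N)) : P088J.IsAdj (bs n) g A α = IsAdj g (cv A) α := rfl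

theorem solves_cv (g : Met n M) (A : P088J.Conn (𝓡∂ n) M (EuclideanSpace ℂ (Fin N)))
    (f : M → P088I65.Fib N) : P088J.Solves (bs n) g A f = Solves g (cv A) f := rfl

theorem lam_cv (Γ : Set M) (g : Met n M) (A : P088J.Conn (𝓡∂ n) M (EuclideanSpace ℂ (Fin N))) :
    P088J.Lam (bs n) (ℝ ∙ bs n 0)ᗮ Γ g A = Lam g (cv A) Γ := rfl

variable [BorelSpace M] [T2Space M] [CompactSpace M] [ConnectedSpace M]

theorem wellDef (hS : DM.SolvM.{u}) (hn : 2 ≤ n) (hb : ((𝓡∂ n).boundary M).Nonempty) (Γ : Set M) :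
    P088J.WellDef (𝓡∂ n) (EuclideanSpace ℂ (Fin N)) (bs n) (ℝ ∙ bs n 0)ᗮ Γ := by
  intro g
  refine ⟨fun x => ⟨exists_on g x, fun e he α β => ip_eq g x he (α x) (β x)⟩,
    existsUnique_vol g, fun A => ?_⟩
  have hA : ADJ (one g (cv A)) := fun u hu => P088W19.adj _ hu
  have hU : UNIQ (one g (cv A)) := fun w hw h => P088W19.uniq _ hw h
  refine ⟨fun u v hu hv => ?_, fun u hu => ?_, fun f hf => ?_⟩
  · have h1 : P088J.ip (Fin n) g (P088J.dA A u) (P088J.dA A v) =
        pairing (met g) (con (cv A)) u v := funext fun x => ip_dA g (cv A) u v x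
    rw [h1]
    exact integrable_of (one g (cv A)) (continuous_pairing _ _ hu hv)
  · obtain ⟨w, hw, -⟩ := adj_exists hA hu
    rw [isAdj_cv, dA_cv]
    exact ⟨w, hw, fun w' hw' => adj_unique hU hw' hw⟩
  · obtain ⟨F, hF, h⟩ := P088I9.ext (n := n) (Γ := Γ) hf
    rw [solves_cv]
    exact existsUnique_sol hS hn hb hA hU hF h

theorem determined (hS : DM.SolvM.{u}) (hn : 2 ≤ n) {Γ : Set M}
    (hb : ((𝓡∂ n).boundary M).Nonempty)
    (hF : ∀ P Q : B.Pair (B.at_ n M) N, B.SameData Γ P Q → B.Related Γ P Q) :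
    P088J.Determined (𝓡∂ n) (EuclideanSpace ℂ (Fin N)) (bs n) (ℝ ∙ bs n 0)ᗮ Γ := by
  intro g₁ g₂ A₁ A₂ h
  rw [lam_cv, lam_cv] at h
  obtain ⟨P, Q, h1, h2⟩ := sameForm_of hb (fun P u hu => P088W19.adj P hu)
    (fun P w hw h => P088W19.uniq P hw h) (fun F hF hs => P088I9.res hF hs) h
  have hb' : (B.bd (B.at_ n M)).Nonempty := by
    rw [B.bd_at]; exact hb
  exact h2 (P088I9.rel (hF P Q (DM.sameData_of hS hn hb' h1)))

end Vale.Agent.P088I65
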